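import Vale.Agent.P167.N.H208.ND.Fin
import Vale.Agent.P167.N.H436.ND.Cut2
import Vale.Agent.P167.H208.ND.Red

/-!
# P167, `0 < q < 1`, block Q-ND: reduction of `S_fre` and `S_ptp` to the general theorem `S_MR`
-/

set_option autoImplicit false

namespace Vale.Agent.P167.N.H208.ND

open Vale.Agent.P167.H208.ND Vale.Agent.P167.H208

open Finset MeasureTheory Vale.Agent.P167.BR Vale.Agent.P167 Vale.Agent.P167.FK

open Vale.Agent.P167.E6 (IsPolygon Encloses)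

open Vale.Agent.P167.QB (Ard dlt XG)

open Vale.Agent.P167.H436.ND

open Vale.Agent.P167.H192.TA (Xc)

open Vale.Agent.P167.H562.QM (MajA)

open Vale.Agent.P167.H640.ND (mem_sites_Zg)

variable {D : Finset (ℤ × ℤ)} {ω : Cfg} {n m : ℕ} {q : ZMod n → ℤ × ℤ} {A : Finset Ed}
  {l k : ℕ} {θ : ℝ} {R : ℤ} {a : Fin m → ℤ} {τ : Fin m → ℝ} {e M : ℝ} {f : Fin m → ℤ × ℤ → ℝ}
  {P : Measure Cfg} {η : Cfg}

theorem vj_fin (h0 : 0 < θ) (h1 : Ang θ) (hC : Chg θ τ e) {j : ℕ} (hj : m ≤ j) :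
    vj θ τ e j = 1 := by
  have h1_lt := h1.lt
  refine vj_zero h0 h1 (Or.inl ?_)
  rw [← hC.fin]
  unfold Sj
  congr 1
  refine sum_congr rfl fun i _ => ?_
  have := i.2
  rw [if_pos (by omega), if_pos (by omega)]

/-- **The general reduction.** -/
theorem of_mr (h0 : 0 < θ) (h1 : Ang θ) (h : Vale.Agent.P167.N.H436.ND.S_MR θ P) (hm : 0 < m)
    (hC : Chg θ τ e) {Cm : ℝ} (hCm : 0 < Cm) :
    ∃ K0 : ℤ, 4 ≤ K0 ∧ ∀ K : ℤ, K0 ≤ K → ∃ (c C : ℝ) (a₀ : ℤ), 0 < c ∧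
    ∀ (n : ℕ) (q : ZMod n → ℤ × ℤ) (D : Finset (ℤ × ℤ)) (k l : ℕ) (R : ℤ) (η : Cfg), Win q D l R →
    (l : ℤ) + R ≤ k → k ≤ n → FltO D η (q l) R false false →
    ∀ a : Fin m → ℤ, Scl a₀ K R a → (∀ i, K * a i ≤ R) →
      (∀ i j : Fin m, (i : ℕ) + 1 = j → vj θ τ e j ≠ 1 → a j ≤ 2 * K * a i) →
    ∀ f : Fin m → ℤ × ℤ → ℝ, (∀ i, Bp Cm (q l) (a i) (f i)) →
      c ≤ Ex (2 * Real.cos θ) D η (XG θ q D k (Ft τ f (dlt (q l) e))) *
        Real.exp (Ex0 θ P τ a) ∧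
      Ex (2 * Real.cos θ) D η (XG θ q D k (Ft τ f (dlt (q l) e))) *
        Real.exp (Ex0 θ P τ a) ≤ C := by
  have h1_lt := h1.lt
  classical
  obtain ⟨M, hM⟩ := exists_mc h0 h1
  have hM1 := hM.h1
  have hpi := Real.pi_lt_d2
  obtain ⟨K0, hK0, hK⟩ := h m M M ((M * M) ^ m) Cm hm hM1 hM1 (by positivity) hCm
  refine ⟨K0, hK0, fun K hKK => ?_⟩
  obtain ⟨c, C, a₀, hc, hh⟩ := hK K hKK
  refine ⟨c, C, max a₀ 4000, hc, ?_⟩
  intro n q D k l R η hw hk hkn hflt a ha haR hgr f hf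
  have ha0 : Scl a₀ K R a := ⟨fun i => (le_max_left _ _).trans (ha.pos i), ha.step, ha.top⟩
  have ha' : Scl 4000 4 R a := by
    refine ⟨fun i => (le_max_right _ _).trans (ha.pos i), fun i j hij => ?_, ha.top⟩
    have h2 := ha.step i j hij
    have h3 := (le_max_right a₀ 4000).trans (ha.pos i)
    nlinarith
  refine hh (vj θ τ e) (vj_zero h0 h1 hC.ini) (fun j => ?_) (fun j => ?_) (fun j hj => ?_)
    n q D l R η false false hw hflt a ha0 haR hgr f hf τ (fun i => ?_) _ (fun S _ N hN => ?_)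
  · rcases le_total j m with hj | hj
    · exact vj_ge h0 h1 hC hj
    · rw [vj_fin h0 h1 hC hj]
  · rcases le_total j m with hj | hj
    · exact hM.dp _ (by linarith [hC.up j hj]) (by linarith [hC.lo j hj])
    · rw [vj_fin h0 h1 hC hj]; exact hM1
  · by_contra hcon
    exact hj (vj_fin h0 h1 hC (by omega))
  · have := hC.small i
    have := dw_le θ
    linarith
  · have hf0 : ∀ i z, 0 ≤ f i z := fun i => (hf i).nonneg
    have hfs : ∀ i z, f i z ≠ 0 → z ∈ Kr (q l) (a i) := fun i => (hf i).supp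
    have hf1 : ∀ i, ∑ᶠ z, f i z = 1 := fun i => (hf i).sum
    have hsm : Sml q D l a (cf D η S) := fun A hA hV =>
      H135.ND.s_small n q D l R hw m a ha' (cf D η S) A hA hV
    refine ⟨?_, fun hgood => ?_⟩
    · refine (det_up hw ha' h0 h1 hM hC hk hkn hf0 hfs hf1 hsm hN).trans ?_
      rw [vc_eq hw ha' hk hkn, mul_assoc]
      have h2 : M ^ m ≤ (M * M) ^ m := pow_le_pow_left₀ (by linarith) (by nlinarith) m
      refine mul_le_mul_of_nonneg_right h2 ?_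
      refine mul_nonneg ?_ (prod_nonneg fun i _ => ?_)
      · rw [← vc_eq hw ha' hk hkn]
        exact prod_nonneg fun _ _ => Real.sqrt_nonneg _
      · unfold Yp
        positivity
    · have h3 := det_lo hw ha' h0 h1 hM hC hk hkn hf0 hfs hf1 hsm hN hgood
      rw [vc_eq hw ha' hk hkn, mul_assoc] at h3
      exact h3

/-- A large number of rings. -/
theorem exists_J (h1 : Ang θ) {x : ℝ} (hx : 0 ≤ x) :
    ∃ J0 : ℕ, 0 < J0 ∧ ∀ J : ℕ, J0 ≤ J → x / J ≤ dw θ := by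
  have hd := dw_pos h1.lt
  obtain ⟨J1, hJ1⟩ := exists_nat_gt (x / dw θ)
  refine ⟨J1 + 1, by omega, fun J hJ => ?_⟩
  have h2 : (J1 : ℝ) ≤ J := by exact_mod_cast (by omega : J1 ≤ J)
  have h3 : (0 : ℝ) < J := by
    have : 0 < J := by omega
    exact_mod_cast this
  rw [div_lt_iff₀ hd] at hJ1
  rw [div_le_iff₀ h3]
  nlinarith

theorem chg_fre (h0 : 0 < θ) {J : ℕ} (hJ0 : 0 < J) (hJ : θ / J ≤ dw θ) : Chg θ (tau2 J (-θ)) 0 := by
  have hJ' : (0 : ℝ) < J := by exact_mod_cast hJ0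
  obtain ⟨h1, h2⟩ := sj_fre hJ0 (-θ)
  have hx : 0 ≤ θ / J := by positivity
  have hJx : (J : ℝ) * (θ / J) = θ := by field_simp
  have hr : ∀ j ≤ 2 * J, -θ ≤ Sj (tau2 J (-θ)) 0 j ∧ Sj (tau2 J (-θ)) 0 j ≤ 0 := by
    intro j hj
    rcases le_total j J with h | h
    · rw [h1 j h, neg_div]
      have h3 : (j : ℝ) ≤ J := by exact_mod_cast h
      have h4 : (0 : ℝ) ≤ j := by positivity
      constructor <;> nlinarith
    · rw [h2 j h hj, neg_div]
      have h3 : (J : ℝ) ≤ j := by exact_mod_cast h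
      have h4 : (j : ℝ) ≤ 2 * J := by exact_mod_cast hj
      constructor <;> nlinarith
  refine ⟨fun j hj => (hr j hj).1, fun j hj => (hr j hj).2, ?_, Or.inl Sj_zero, fun i => ?_⟩
  · rw [h2 _ (by omega) le_rfl]
    push_cast
    ring
  · have h3 : |tau2 J (-θ) i| = θ / J := by
      unfold tau2
      split_ifs
      · rw [neg_div, abs_neg, abs_of_nonneg hx]
      · rw [neg_div, neg_neg, abs_of_nonneg hx]
    rw [h3]
    exact hJ

theorem chg_ptp (h0 : 0 < θ) {J : ℕ} (hJ0 : 0 < J) (hJ : θ / J ≤ dw θ) : Chg θ (fun _ : Fin J => θ / J) (-θ) := by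
  have hJ' : (0 : ℝ) < J := by exact_mod_cast hJ0
  have h1 := sj_ptp (J := J) (θ / J) (-θ)
  have hx : 0 ≤ θ / J := by positivity
  have hJx : (J : ℝ) * (θ / J) = θ := by field_simp
  refine ⟨fun j hj => ?_, fun j hj => ?_, ?_, Or.inr Sj_zero, fun i => ?_⟩
  · rw [h1 j hj]
    have h4 : (0 : ℝ) ≤ j := by positivity
    nlinarith
  · rw [h1 j hj]
    have h3 : (j : ℝ) ≤ J := by exact_mod_cast hj
    nlinarith
  · rw [h1 _ le_rfl, hJx]
    ring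
  · rw [abs_of_nonneg hx]
    exact hJ

/-- **(FRE) from (MR).** -/
theorem fre_of_mr (h0 : 0 < θ) (h1 : Ang θ) (h : Vale.Agent.P167.N.H436.ND.S_MR θ P) : S_fre θ P := by
  have h1_lt := h1.lt
  obtain ⟨J0, hJ00, hJ1⟩ := exists_J h1 h0.le
  refine ⟨J0, hJ00, fun J hJ Cm hCm => ?_⟩
  obtain ⟨K0, hK0, hK⟩ := of_mr h0 h1 h (m := 2 * J) (by omega)
    (chg_fre h0 (by omega) (hJ1 J hJ)) hCm
  refine ⟨K0, hK0, fun K hKK => ?_⟩
  obtain ⟨c, C, a₀, hc, hh⟩ := hK K hKK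
  refine ⟨c, C, a₀, hc, ?_⟩
  intro n q D k l R η hw hk hkn _ hflt a ha haR hgr f hf
  have h2 := hh n q D k l R η hw hk hkn hflt a ha haR (fun i j hij hne => hgr i j hij fun hJj => hne ?_)
    f hf
  · rw [dlt_zero] at h2
    exact h2
  · refine vj_zero h0 h1 (Or.inr ?_)
    rw [hJj, (sj_fre (by omega) (-θ)).1 J le_rfl]
    have : (J : ℝ) ≠ 0 := by
      have : 0 < J := by omega
      positivity
    field_simp

/-- **(PTP) from (MR).** -/
theorem ptp_of_mr (h0 : 0 < θ) (h1 : Ang θ) (h : Vale.Agent.P167.N.H436.ND.S_MR θ P) : S_ptp θ P := by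
  have h1_lt := h1.lt
  obtain ⟨J0, hJ00, hJ1⟩ := exists_J h1 h0.le
  refine ⟨J0, hJ00, fun J hJ Cm hCm => ?_⟩
  obtain ⟨K0, hK0, hK⟩ := of_mr h0 h1 h (m := J) (by omega)
    (chg_ptp h0 (by omega) (hJ1 J hJ)) hCm
  refine ⟨K0, hK0, fun K hKK => ?_⟩
  obtain ⟨c, C, a₀, hc, hh⟩ := hK K hKK
  refine ⟨c, C, a₀, hc, ?_⟩
  intro n q D k l R η hw hk hkn _ hflt a ha haR hgr f hf
  exact hh n q D k l R η hw hk hkn hflt a ha haR (fun i j hij _ => hgr i j hij) f hf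

end Vale.Agent.P167.N.H208.ND
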