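import Vale.Agent.P167.N.H208.ND.Red
import Vale.Agent.P167.H208.ND.Jdq

/-!
# P167, `0 < q < 1`, block Q-ND: the deterministic part of the junction, `S_jd`
-/

set_option autoImplicit false

namespace Vale.Agent.P167.N.H208.ND

open Vale.Agent.P167.H208.ND Vale.Agent.P167.H208
open Finset MeasureTheory Vale.Agent.P167.BR Vale.Agent.P167 Vale.Agent.P167.FK
open Vale.Agent.P167.E6 (IsPolygon Encloses)
open Vale.Agent.P167.QX (lo hi wB)
open Vale.Agent.P167.QB (Ard dlt XG gB gB_cos ard_lp)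
open Vale.Agent.P167.H436.ND hiding Yl
open Vale.Agent.P167.H192.TA (Xc)
open Vale.Agent.P167.H562.QM (MajA)
open Vale.Agent.P167.H542.Q (cB wR thB wR_thB)
open Vale.Agent.P167.N.H542.Q (cB_pos phs_thB)
open Vale.Agent.P167.N.H436.ND (Yl)
open Vale.Agent.P167.H562.MAJ (Sm)
open Vale.Agent.P167.H562.SML (smf)

variable {D : Finset (ℤ × ℤ)} {ω : Cfg} {n m : ℕ} {q : ZMod n → ℤ × ℤ} {A : Finset Ed}
  {k : ℕ} {θ : ℝ} {R : ℤ} {a : Fin m → ℤ} {τ : Fin m → ℝ} {M : ℝ} {f : Fin m → ℤ × ℤ → ℝ}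

/-- The charges of the junction. -/
structure ChJ (θ : ℝ) (τ : Fin m → ℝ) : Prop where
  lo : ∀ j ≤ m, 0 ≤ Sj τ 0 j
  up : ∀ j ≤ m, Sj τ 0 j ≤ Real.pi - 2 * θ
  fin : Sj τ 0 m = 0
  small : ∀ i, |τ i| ≤ dw θ

theorem sin_add_ge (h0 : 0 < θ) (h1 : Ang θ) {t : ℝ} (ht0 : 0 ≤ t)
    (ht1 : t ≤ Real.pi - 2 * θ) : 1 ≤ Real.sin (θ + t) / Real.sin θ := by
  have hpi := Real.pi_gt_three
  have h1_lt := h1.lt
  have h1_gt := h1.gt
  have hd1 := dw_pos h1.lt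
  have hd2 := dw_le θ
  have hd3 := dw_le' θ
  have hs : 0 < Real.sin θ := Real.sin_pos_of_pos_of_lt_pi h0 (by linarith)
  rw [le_div_iff₀ hs, one_mul]
  have h2 : Real.sin (θ + t) - Real.sin θ = 2 * Real.sin ((θ + t - θ) / 2) *
      Real.cos ((θ + t + θ) / 2) := Real.sin_sub_sin _ _
  have h3 : 0 ≤ Real.sin ((θ + t - θ) / 2) :=
    Real.sin_nonneg_of_nonneg_of_le_pi (by linarith) (by linarith)
  have h4 : 0 ≤ Real.cos ((θ + t + θ) / 2) :=
    Real.cos_nonneg_of_mem_Icc ⟨by linarith, by linarith⟩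
  have h5 : 0 ≤ 2 * Real.sin ((θ + t - θ) / 2) * Real.cos ((θ + t + θ) / 2) := by positivity
  linarith

theorem vjj_one (h0 : 0 < θ) (h1 : Ang θ) {j : ℕ}
    (h : Sj τ 0 j = 0 ∨ Sj τ 0 j = Real.pi - 2 * θ) : vjj θ τ j = 1 := by
  have hpi := Real.pi_gt_three
  have h1_lt := h1.lt
  have h1_gt := h1.gt
  have hd1 := dw_pos h1.lt
  have hd2 := dw_le θ
  have hd3 := dw_le' θ
  have hs : 0 < Real.sin θ := Real.sin_pos_of_pos_of_lt_pi h0 (by linarith)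
  unfold vjj
  rcases h with h | h <;> rw [h]
  · rw [add_zero, div_self hs.ne']
  · rw [show θ + (Real.pi - 2 * θ) = Real.pi - θ by ring, Real.sin_pi_sub, div_self hs.ne']

theorem wB_zero' (h0 : 0 < θ) (h1 : Ang θ) (hA : ¬ Ard q k A) :
    wB θ (gB θ) q D k A 0 = 1 := by
  have hpi := Real.pi_gt_three
  have h1_lt := h1.lt
  have h1_gt := h1.gt
  have hd1 := dw_pos h1.lt
  have hd2 := dw_le θ
  have hd3 := dw_le' θ
  have hs : 0 < Real.sin θ := Real.sin_pos_of_pos_of_lt_pi h0 (by linarith)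
  have hs2 : 0 < Real.sin (2 * θ) := Real.sin_pos_of_pos_of_lt_pi (by linarith) (by linarith)
  have hc : 0 < Real.cos θ := Real.cos_pos_of_mem_Ioo ⟨by linarith, by linarith⟩
  unfold wB
  split_ifs with c1 c2 c3
  · rw [add_zero, div_self hc.ne']
  · exact absurd c2 hA
  · rw [add_zero, div_self hs2.ne']
  · rw [sub_zero, div_self hs.ne']

section

variable (hw : Win q D k R) (ha : Scl 4000 4 R a)
include hw ha

/-- **The weights of the visiting pieces are positive.** -/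
theorem wposj (hM : Mc θ M) (hC : ChJ θ τ) (h0 : 0 < θ) (h1 : Ang θ)
    (hf0 : ∀ i z, 0 ≤ f i z)
    (hfs : ∀ i z, f i z ≠ 0 → z ∈ Kr (q k) (a i)) (hf1 : ∀ i, ∑ᶠ z, f i z = 1)
    (hgood : ∀ i j : Fin m, (i : ℕ) + 1 = j → ω ∉ Xc false (q k) (2 * a i) (a j))
    (hA : A ∈ pcs ω D) (hV : ∃ i, Vz (Zr (q k) (a i)) A) :
    M⁻¹ ≤ wB θ (gB θ) q D k A (mass D (q 0) (Ft τ f 0) A) := by
  classical
  obtain ⟨i0, hV0⟩ := hV
  have hV' : ∀ i, i ≠ i0 → ¬ Vz (Zr (q k) (a i)) A := fun i hi h =>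
    hi (one_ring hw ha hgood hA h hV0)
  have hR := range_i hw ha i0
  rw [← dlt_zero (q k), mass_vis hw ha (k := n) (by omega) le_rfl hfs hf1 hA i0 hV0 hV']
  obtain ⟨σ, hσ⟩ : ∃ σ, σ = mass D (q 0) (f i0) A := ⟨_, rfl⟩
  have h01 := mass_01 hw ha i0 (hf0 i0) (hfs i0) (hf1 i0) A
  rw [← hσ] at h01 ⊢
  have hsm := hC.small i0
  have hts : |τ i0 * σ| ≤ dw θ := by
    rw [abs_mul, abs_of_nonneg h01.1]
    nlinarith [abs_nonneg (τ i0)]
  have hts' := abs_le.1 hts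
  have hpi := Real.pi_gt_three
  have h1_gt := h1.gt
  have hd1 := dw_pos h1.lt
  have hd2 := dw_le θ
  have hS := Sj_succ (τ := τ) (e := 0) i0
  have hS1 := hC.lo i0 i0.2.le
  have hS2 := hC.up i0 i0.2.le
  have hS3 := hC.lo (i0 + 1) i0.2
  have hS4 := hC.up (i0 + 1) i0.2
  obtain ⟨t, ht⟩ : ∃ t, t = τ i0 * σ + (if Ard q k A then Sj τ 0 i0 else 0) := ⟨_, rfl⟩
  rw [← ht]
  have hl1 : Ard q k A → 0 ≤ t ∧ t ≤ Real.pi - 2 * θ := fun hl => by
    rw [if_pos hl] at ht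
    have e1 : t = σ * Sj τ 0 (i0 + 1) + (1 - σ) * Sj τ 0 i0 := by
      rw [ht, hS]; ring
    rw [e1]
    constructor
    · have := mul_nonneg h01.1 hS3
      have := mul_nonneg (by linarith : (0 : ℝ) ≤ 1 - σ) hS1
      linarith
    · nlinarith
  have hl2 : ¬ Ard q k A → |t| ≤ dw θ := fun hl => by
    rw [if_neg hl, add_zero] at ht
    rw [ht]
    exact hts
  unfold wB
  split_ifs with c1 c2 c3
  · exact hM.w1 t (hl2 (ard_lp hw.poly hw.enc hA c1))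
  · rw [cos_jun]
    exact (inv_le_one_of_one_le₀ hM.h1).trans (sin_add_ge h0 h1 (hl1 c2).1 (hl1 c2).2)
  · have h2 := abs_le.1 (hl2 c2)
    exact hM.w4 t (by linarith) h2.2
  · have h2 := abs_le.1 (hl2 c2)
    exact hM.w3 t (by linarith) h2.2

open Classical in
/-- The product over the avoiding pieces. -/
theorem av_eqj (hm : 0 < m) (h0 : 0 < θ) (h1 : Ang θ)
    (hfs : ∀ i z, f i z ≠ 0 → z ∈ Kr (q k) (a i)) (hf1 : ∀ i, ∑ᶠ z, f i z = 1) :
    ∏ A ∈ (pcs ω D).filter (fun A => ∀ i, ¬ Vz (Zr (q k) (a i)) A),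
      wB θ (gB θ) q D k A (mass D (q 0) (Ft τ f 0) A) =
      H436.ND.Vc (vjj θ τ) q D (zf (q k) a) (UU (q k) a 0) ω := by
  unfold H436.ND.Vc
  refine prod_congr ?_ fun A hA => ?_
  · refine filter_congr fun A _ => ?_
    rw [vz_iff, not_exists]
  · rw [mem_filter] at hA
    have hV : ∀ i, ¬ Vz (Zr (q k) (a i)) A := fun i hv => hA.2 (vz_iff.2 ⟨i, hv⟩)
    have hkR : (k : ℤ) + R ≤ n := (range_i hw ha ⟨0, hm⟩).2.2.2
    have hcl : clz q D (zf (q k) a) A = cls q (sL k a) A := by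
      unfold cls clz
      refine congrArg Finset.card ?_
      refine filter_congr fun i _ => ?_
      refine (sep_iff hw.poly hw.enc (zn_ring hw ha (k := n) hkR le_rfl) i hA.1 (hV i) ?_)
      have h1 := range_i hw ha i
      show zf (q k) a i ∈ sites (Zg (q k) (a i) (2 * a i))
      rw [H640.ND.mem_sites_Zg (by omega) (by omega)]
      unfold zf
      simp only
      omega
    rw [hcl, ← dlt_zero (q k), mass_av hw ha (k := n) hkR le_rfl hfs hf1 hA.1 hV]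
    by_cases hl : Ard q k A
    · rw [if_pos hl]
      unfold wB
      rw [if_neg (fun h => ard_lp hw.poly hw.enc hA.1 h hl),
        if_pos (show lo q A < k ∧ k ≤ hi q A from hl), cos_jun]
      rfl
    · rw [if_neg hl, wB_zero' h0 h1 hl]
      have h5 : cls q (sL k a) A = 0 := by
        unfold cls
        rw [card_eq_zero, filter_eq_empty_iff]
        intro i _ h
        exact hl (ard_l hw.poly hw.enc (zn_ring hw ha (k := n) hkR le_rfl) i hA.1 (hV i) h)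
      rw [h5, vjj_one h0 h1 (Or.inl Sj_zero)]

open Classical in
/-- The product over the visiting pieces. -/
theorem vis_bdj (h0 : 0 < θ) (h1 : Ang θ) (hM : Mc θ M) (hC : ChJ θ τ)
    (hf0 : ∀ i z, 0 ≤ f i z)
    (hfs : ∀ i z, f i z ≠ 0 → z ∈ Kr (q k) (a i)) (hf1 : ∀ i, ∑ᶠ z, f i z = 1)
    {N : Fin m → ℕ} (hN : ∀ i, MajA (Zr (q k) (a i)) (kp * a i) ω (N i)) :
    |∏ A ∈ (pcs ω D).filter (fun A => ∃ i, Vz (Zr (q k) (a i)) A),
      wB θ (gB θ) q D k A (mass D (q 0) (Ft τ f 0) A)| ≤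
      ∏ i, Yu θ M (τ i) (f i) (a i) (N i) ω ∧
    ((∀ i j : Fin m, (i : ℕ) + 1 = j → ω ∉ Xc false (q k) (2 * a i) (a j)) →
      ∏ i, (Yl θ M (τ i) (f i) (q k) (a i) (N i) ω)⁻¹ ≤
      ∏ A ∈ (pcs ω D).filter (fun A => ∃ i, Vz (Zr (q k) (a i)) A),
        wB θ (gB θ) q D k A (mass D (q 0) (Ft τ f 0) A)) := by
  have e1 : Ft (fun _ => 1) (fun i z => τ i * f i z) 0 = Ft τ f 0 := by
    funext z
    simp [Ft]
  have key := Vale.Agent.P167.N.H542.Q.PW.s_PW θ (cB θ) D (thB θ (gB θ) q D k) (q 0) (phs_thB h0 h1 (gB_cos θ)) m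
    (fun i => Zr (q k) (a i)) (fun i => Kr (q k) (a i)) (fun i => kp * a i) (rng_ring hw ha)
    (fun i z => τ i * f i z) 0 (fun i z hz => hfs i z (right_ne_zero_of_mul hz)) ω
    (fun i ℓ _ _ => ?_) (fun A hA hv => ?_) N hN M hM.h1 hM.cb
  · rw [e1] at key
    simp only [wR_thB (gB_cos θ)] at key
    refine ⟨key.1, fun hgood => ?_⟩
    refine le_trans (le_of_eq ?_) (key.2 fun A hA hv => ?_)
    · refine prod_congr rfl fun i _ => ?_
      unfold Yl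
      rw [mul_inv, ← Real.exp_neg, inv_pow]
      congr 2
      ring
    · obtain ⟨i, hv, -⟩ := hv
      exact wposj hw ha hM hC h0 h1 hf0 hfs hf1 hgood hA ⟨i, hv⟩
  · have h2 := hC.small i
    have h3 := range_i hw ha i
    have h4 : |G (fun z => τ i * f i z) ℓ| ≤ |τ i| :=
      abs_G_le (F := sites (Zr (q k) (a i))) (τ i) (hf0 i)
        (fun z hz => kr_sites (by omega) (hfs i z hz)) (hf1 i) ℓ
    have := Real.pi_lt_d2
    linarith
  · obtain ⟨h2, h3⟩ := H135.ND.s_small n q D k R hw m a ha ω A hA hv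
    have hm0 : mass D (q 0) (0 : ℤ × ℤ → ℝ) A = 0 := by
      unfold mass
      refine sum_eq_zero fun z _ => ?_
      split_ifs <;> rfl
    refine ⟨hm0, fun hl => ?_⟩
    rw [e1, mass_lin, hm0, add_zero]
    refine sum_eq_zero fun i _ => ?_
    have : mass D (q 0) (f i) A = 0 := by
      unfold mass
      refine sum_eq_zero fun z _ => ?_
      by_cases hz : f i z = 0
      · rw [hz, ite_self]
      · rw [if_neg (h3 hl i z (hfs i z hz))]
    rw [this, mul_zero]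

/-- **Both bounds.** -/
theorem det_jun (hm : 0 < m) (h0 : 0 < θ) (h1 : Ang θ) (hM : Mc θ M) (hC : ChJ θ τ)
    (hf0 : ∀ i z, 0 ≤ f i z)
    (hfs : ∀ i z, f i z ≠ 0 → z ∈ Kr (q k) (a i)) (hf1 : ∀ i, ∑ᶠ z, f i z = 1)
    {N : Fin m → ℕ} (hN : ∀ i, MajA (Zr (q k) (a i)) (kp * a i) ω (N i))
    (hv1 : ∀ j, 1 ≤ vjj θ τ j) :
    |XG θ q D k (Ft τ f 0) ω| ≤ H436.ND.Vc (vjj θ τ) q D (zf (q k) a) (UU (q k) a 0) ω *
      ∏ i, Yu θ M (τ i) (f i) (a i) (N i) ω ∧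
    ((∀ i j : Fin m, (i : ℕ) + 1 = j → ω ∉ Xc false (q k) (2 * a i) (a j)) →
      H436.ND.Vc (vjj θ τ) q D (zf (q k) a) (UU (q k) a 0) ω ≤ XG θ q D k (Ft τ f 0) ω *
        ∏ i, Yl θ M (τ i) (f i) (q k) (a i) (N i) ω) := by
  classical
  have hM0 : 0 < M := by linarith [hM.h1]
  have h2 := av_eqj (ω := ω) (τ := τ) hw ha hm h0 h1 hfs hf1
  have h3 := vis_bdj hw ha h0 h1 hM hC hf0 hfs hf1 hN
  have h4 : XG θ q D k (Ft τ f 0) ω =
      H436.ND.Vc (vjj θ τ) q D (zf (q k) a) (UU (q k) a 0) ω *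
      ∏ A ∈ (pcs ω D).filter (fun A => ∃ i, Vz (Zr (q k) (a i)) A),
        wB θ (gB θ) q D k A (mass D (q 0) (Ft τ f 0) A) := by
    rw [← h2]
    unfold XG QX.XB
    rw [← prod_filter_mul_prod_filter_not (pcs ω D) (fun A => ∀ i, ¬ Vz (Zr (q k) (a i)) A)]
    congr 1
    refine prod_congr ?_ fun _ _ => rfl
    refine filter_congr fun A _ => ?_
    push Not
    rfl
  have hV1 : 1 ≤ H436.ND.Vc (vjj θ τ) q D (zf (q k) a) (UU (q k) a 0) ω := Vc_one_le hv1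
  rw [h4]
  refine ⟨?_, fun hgood => ?_⟩
  · rw [abs_mul, abs_of_nonneg (by linarith)]
    exact mul_le_mul_of_nonneg_left h3.1 (by linarith)
  · have h5 := h3.2 hgood
    obtain ⟨U, hU⟩ : ∃ U, U = ∏ A ∈ (pcs ω D).filter (fun A => ∃ i, Vz (Zr (q k) (a i)) A),
        wB θ (gB θ) q D k A (mass D (q 0) (Ft τ f 0) A) := ⟨_, rfl⟩
    obtain ⟨Y, hY⟩ : ∃ Y, Y = ∏ i, Yl θ M (τ i) (f i) (q k) (a i) (N i) ω := ⟨_, rfl⟩
    rw [← hU] at h5 ⊢
    rw [← hY]
    rw [prod_inv_distrib, ← hY] at h5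
    have hY0 : 0 < Y := by
      rw [hY]
      refine prod_pos fun i _ => ?_
      unfold Yl
      positivity
    have h6 : 1 ≤ U * Y := by
      have := mul_le_mul_of_nonneg_right h5 hY0.le
      rwa [inv_mul_cancel₀ hY0.ne'] at this
    rw [mul_assoc]
    exact le_mul_of_one_le_right (by linarith) h6

end

theorem chj {J : ℕ} (h0 : 0 < θ) (h1 : Ang θ) (hJ0 : 0 < J)
    (hJ : (Real.pi - 2 * θ) / J ≤ dw θ) : ChJ θ (tau2 J (Real.pi - 2 * θ)) := by
  have hpi := Real.pi_gt_three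
  have h1_lt := h1.lt
  have h1_gt := h1.gt
  have hd1 := dw_pos h1.lt
  have hd2 := dw_le θ
  have hd3 := dw_le' θ
  have hJ' : (0 : ℝ) < J := by exact_mod_cast hJ0
  obtain ⟨h1, h2⟩ := sj_fre hJ0 (Real.pi - 2 * θ)
  have ht : 0 < Real.pi - 2 * θ := by linarith
  have hx : 0 ≤ (Real.pi - 2 * θ) / J := by positivity
  have hJx : (J : ℝ) * ((Real.pi - 2 * θ) / J) = Real.pi - 2 * θ := by field_simp
  have hr : ∀ j ≤ 2 * J, 0 ≤ Sj (tau2 J (Real.pi - 2 * θ)) 0 j ∧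
      Sj (tau2 J (Real.pi - 2 * θ)) 0 j ≤ Real.pi - 2 * θ := by
    intro j hj
    rcases le_total j J with h | h
    · rw [h1 j h]
      have h3 : (j : ℝ) ≤ J := by exact_mod_cast h
      have h4 : (0 : ℝ) ≤ j := by positivity
      constructor <;> nlinarith
    · rw [h2 j h hj]
      have h3 : (J : ℝ) ≤ j := by exact_mod_cast h
      have h4 : (j : ℝ) ≤ 2 * J := by exact_mod_cast hj
      constructor <;> nlinarith
  refine ⟨fun j hj => (hr j hj).1, fun j hj => (hr j hj).2, ?_, fun i => ?_⟩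
  · rw [h2 _ (by omega) le_rfl]
    push_cast
    ring
  · have h3 : |tau2 J (Real.pi - 2 * θ) i| = (Real.pi - 2 * θ) / J := by
      unfold tau2
      split_ifs
      · rw [abs_of_nonneg hx]
      · rw [abs_neg, abs_of_nonneg hx]
    rw [h3]
    exact hJ

/-- **(JD).** -/
theorem s_jd (h0 : 0 < θ) (h1 : Ang θ) : Vale.Agent.P167.N.H436.ND.S_jd θ := by
  classical
  have hpi := Real.pi_gt_three
  have h1_lt := h1.lt
  have h1_gt := h1.gt
  have hd1 := dw_pos h1.lt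
  have hd2 := dw_le θ
  have hd3 := dw_le' θ
  have hs : 0 < Real.sin θ := Real.sin_pos_of_pos_of_lt_pi h0 (by linarith)
  obtain ⟨M, hM⟩ := exists_mc h0 h1
  obtain ⟨J1, hJ10, hJ1⟩ := exists_J h1 (x := Real.pi - 2 * θ) (by linarith)
  refine ⟨J1, hJ10, fun J hJ => ?_⟩
  have hJ0 : 0 < J := by omega
  have hJ' : (0 : ℝ) < J := by exact_mod_cast hJ0
  have hC : ChJ θ (tau2 J (Real.pi - 2 * θ)) := chj h0 h1 hJ0 (hJ1 J hJ)
  have hS : ∀ j, 0 ≤ Sj (tau2 J (Real.pi - 2 * θ)) 0 j ∧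
      Sj (tau2 J (Real.pi - 2 * θ)) 0 j ≤ Real.pi - 2 * θ := by
    intro j
    rcases le_total j (2 * J) with hj | hj
    · exact ⟨hC.lo j hj, hC.up j hj⟩
    · rw [sj_fin hj, hC.fin]
      constructor <;> linarith
  have hv1 : ∀ j, 1 ≤ vjj θ (tau2 J (Real.pi - 2 * θ)) j := fun j =>
    sin_add_ge h0 h1 (hS j).1 (hS j).2
  refine ⟨vjj θ (tau2 J (Real.pi - 2 * θ)), 1 / Real.sin θ, M, 4, 4000,
    vjj_one h0 h1 (Or.inl Sj_zero), hv1, fun j => ?_, fun j hj => ?_, hM.h1, le_rfl, ?_⟩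
  · unfold vjj
    exact div_le_div_of_nonneg_right (Real.sin_le_one _) hs.le
  · constructor
    · by_contra hcon
      exact hj (vjj_one h0 h1 (Or.inl (by rw [sj_fin (by omega), hC.fin])))
    · intro hjJ
      refine hj (vjj_one h0 h1 (Or.inr ?_))
      rw [hjJ, (sj_fre hJ0 _).1 J le_rfl]
      field_simp
  · intro n q D k R hw _ a ha _ Cm f hf ω N hN
    exact det_jun hw ha (by omega) h0 h1 hM hC (fun i => (hf i).nonneg) (fun i => (hf i).supp)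
      (fun i => (hf i).sum) hN hv1

end Vale.Agent.P167.N.H208.ND
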