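import Vale.Agent.P167.N.Kit
import Vale.Agent.P167.N.H208.ND.Jdq
import Vale.Agent.P167.N.H436.ND.Jun
import Vale.Agent.P167.N.H436.ND.MRf
import Vale.Agent.P167.H208.ND.JP

/-! generated from Vale.Agent.P167.H208.ND.JP (q < 1 port) -/

set_option autoImplicit false

namespace Vale.Agent.P167.N.H208.ND

open Vale.Agent.P167.H208.ND Vale.Agent.P167.H208

open MeasureTheory Vale.Agent.P167 Vale.Agent.P167.FK Vale.Agent.P167.H436.ND

open Vale.Agent.P167.H192.Q (SRSW)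

open Vale.Agent.P167.H519 (IsLim)

variable {θ : ℝ} {P : Measure Cfg}

/-- **(JUN).** -/
theorem s_jun (h0 : 0 < θ) (h1 : Ang θ) (hR : RSW (2 * Real.cos θ))
    (hS : SRSW (2 * Real.cos θ)) (hP : IsLim (2 * Real.cos θ) P) : S_jun θ P :=
  Vale.Agent.P167.N.H436.ND.jun_of h0 h1 (s_jd h0 h1) (Vale.Agent.P167.N.H436.ND.s_mrF h0 h1 hR hS hP)

end Vale.Agent.P167.N.H208.ND
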