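import Vale.Agent.P167.N.Kit
import Vale.Agent.P167.H208.ND.Blk

/-!
# P167, `0 < q < 1`, block Q-ND: the weights of a block

`π / 3 < θ < π / 2`: the value of the downward strands `sin (θ + x) / sin θ` is at least `2 cos θ`, the value of
the upward strands `sin (2 θ - x) / sin (2 θ)` is at least `1`, the product is at least `1`.
-/

set_option autoImplicit false

namespace Vale.Agent.P167.N.H208.ND

open Vale.Agent.P167.H208.ND Vale.Agent.P167.H208

open Finset Relation Vale.Agent.P167.BR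

open Vale.Agent.P167.E6 (IsPolygon Encloses)

open Vale.Agent.P167.H718 (IsXY IsCl Cl isCl_strand side_const)

open Vale.Agent.P167.QX (lo hi exists_xy lo_xy hi_xy wB)

open Vale.Agent.P167.QB (gB Ard sg sgm ep sum_alt sg_cases sg_xy ard_lp non_cross vis_inner sep_ard
  sgm_sub_bd)

variable {D Z : Finset (ℤ × ℤ)} {ω : Cfg} {n : ℕ} {q : ZMod n → ℤ × ℤ} {A B : Finset Ed}
  {x y w m l k : ℕ} {θ : ℝ} {P P' : Finset Ed → Prop}

/-- Comparison with the geometric mean of the two values. -/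
theorem two_cmp {ι : Type*} (T : Finset ι) (s : ι → ℤ) (hs : ∀ i ∈ T, s i = 1 ∨ s i = -1)
    (h : |∑ i ∈ T, s i| ≤ 1) {d p v M : ℝ} (hd : 1 ≤ M * d) (hp : 1 ≤ M * p) (hd0 : 0 < d)
    (hp0 : 0 < p) (hv : 1 ≤ v) (hdp : v ^ 2 = d * p) (hdM : d ≤ M) (hpM : p ≤ M) (hvM : v ≤ M) :
    (∏ i ∈ T, if s i = 1 then d else p) ≤ M * ∏ _i ∈ T, v ∧
      ∏ _i ∈ T, v ≤ M * M * ∏ i ∈ T, if s i = 1 then d else p := by
  classical
  have e : ∏ i ∈ T, (if s i = 1 then d else p) =
      d ^ (T.filter (fun i => s i = 1)).card * p ^ (T.filter (fun i => ¬ s i = 1)).card := by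
    rw [prod_ite, prod_const, prod_const]
  have e2 : ∑ i ∈ T, s i = (T.filter (fun i => s i = 1)).card -
      (T.filter (fun i => ¬ s i = 1)).card := by
    rw [← sum_filter_add_sum_filter_not T (fun i => s i = 1)]
    rw [sum_congr rfl (fun i hi => (mem_filter.1 hi).2),
      sum_congr (s₁ := T.filter fun i => ¬ s i = 1) rfl (fun i hi =>
        ((hs i (mem_filter.1 hi).1).resolve_left (mem_filter.1 hi).2 : s i = -1))]
    simp only [sum_const, nsmul_eq_mul]
    ring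
  have e3 : T.card = (T.filter (fun i => s i = 1)).card + (T.filter (fun i => ¬ s i = 1)).card := by
    rw [card_filter_add_card_filter_not]
  rw [e, prod_const, e3]
  obtain ⟨N, hN⟩ : ∃ N, N = (T.filter (fun i => s i = 1)).card := ⟨_, rfl⟩
  obtain ⟨K, hK⟩ : ∃ K, K = (T.filter (fun i => ¬ s i = 1)).card := ⟨_, rfl⟩
  rw [← hN, ← hK] at e2 ⊢
  rw [e2, abs_le] at h
  have hM1 : 1 ≤ M := hv.trans hvM
  have hMM : 1 ≤ M * M := by nlinarith
  have hcase : K = N ∨ N = K + 1 ∨ K = N + 1 := by omega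
  rcases hcase with h1 | h1 | h1
  · have h2 : d ^ N * p ^ K = v ^ (N + K) := by
      rw [h1, ← mul_pow, ← hdp, ← pow_mul]; congr 1; ring
    rw [h2]
    have h3 : 0 < v ^ (N + K) := by positivity
    constructor <;> nlinarith
  · have h2 : d ^ N * p ^ K = v ^ (2 * K) * d := by
      rw [h1, pow_succ, mul_right_comm, ← mul_pow, ← hdp, ← pow_mul]
    have h3 : v ^ (N + K) = v ^ (2 * K) * v := by
      rw [h1, ← pow_succ]; congr 1; ring
    rw [h2, h3]
    have h4 : 0 < v ^ (2 * K) := by positivity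
    constructor
    · have : d ≤ M * v := by nlinarith
      calc v ^ (2 * K) * d ≤ v ^ (2 * K) * (M * v) := mul_le_mul_of_nonneg_left this h4.le
        _ = _ := by ring
    · have : v ≤ M * M * d := by nlinarith
      calc v ^ (2 * K) * v ≤ v ^ (2 * K) * (M * M * d) := mul_le_mul_of_nonneg_left this h4.le
        _ = _ := by ring
  · have h2 : d ^ N * p ^ K = v ^ (2 * N) * p := by
      rw [h1, pow_succ, ← mul_assoc, ← mul_pow, ← hdp, ← pow_mul]
    have h3 : v ^ (N + K) = v ^ (2 * N) * v := by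
      rw [h1, ← pow_succ]; congr 1; ring
    rw [h2, h3]
    have h4 : 0 < v ^ (2 * N) := by positivity
    constructor
    · have : p ≤ M * v := by nlinarith
      calc v ^ (2 * N) * p ≤ v ^ (2 * N) * (M * v) := mul_le_mul_of_nonneg_left this h4.le
        _ = _ := by ring
    · have : v ≤ M * M * p := by nlinarith
      calc v ^ (2 * N) * v ≤ v ^ (2 * N) * (M * M * p) := mul_le_mul_of_nonneg_left this h4.le
        _ = _ := by ring

/-- A positive lower bound: `sin` is concave, `sin (θ + x) ≥ sin (2 θ)`. -/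
theorem trig_d {θ x : ℝ} (h0 : 0 < θ) (h1 : Ang θ) (hx0 : 0 ≤ x) (hx1 : x ≤ θ) :
    2 * Real.cos θ ≤ Real.sin (θ + x) / Real.sin θ := by
  have h1_lt := h1.lt
  have h1_gt := h1.gt
  have hpi := Real.pi_pos
  have hs : 0 < Real.sin θ := Real.sin_pos_of_pos_of_lt_pi h0 (by linarith)
  rw [le_div_iff₀ hs, mul_right_comm, ← Real.sin_two_mul, ← sub_nonneg, Real.sin_sub_sin]
  have h2 : Real.sin ((θ + x - 2 * θ) / 2) ≤ 0 :=
    Real.sin_nonpos_of_nonpos_of_neg_pi_le (by linarith) (by linarith)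
  have h3 : Real.cos ((θ + x + 2 * θ) / 2) ≤ 0 := by
    refine Real.cos_nonpos_of_pi_div_two_le_of_le (by linarith) (by linarith)
  nlinarith [mul_nonneg_of_nonpos_of_nonpos h2 h3]

theorem trig_p {θ x : ℝ} (h0 : 0 < θ) (h1 : Ang θ) (hx0 : 0 ≤ x) (hx1 : x ≤ θ) :
    1 ≤ Real.sin (2 * θ - x) / Real.sin (2 * θ) := by
  have h1_lt := h1.lt
  have h1_gt := h1.gt
  have hpi := Real.pi_pos
  have hs2 : 0 < Real.sin (2 * θ) := Real.sin_pos_of_pos_of_lt_pi (by linarith) (by linarith)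
  rw [le_div_iff₀ hs2, one_mul, ← sub_nonneg, Real.sin_sub_sin]
  have h2 : Real.sin ((2 * θ - x - 2 * θ) / 2) ≤ 0 :=
    Real.sin_nonpos_of_nonpos_of_neg_pi_le (by linarith) (by linarith)
  have h3 : Real.cos ((2 * θ - x + 2 * θ) / 2) ≤ 0 := by
    refine Real.cos_nonpos_of_pi_div_two_le_of_le (by linarith) (by linarith)
  nlinarith [mul_nonneg_of_nonpos_of_nonpos h2 h3]

theorem trig_dp_ge {θ x : ℝ} (h0 : 0 < θ) (h1 : Ang θ) (hx0 : 0 ≤ x) (hx1 : x ≤ θ) :
    1 ≤ Real.sin (θ + x) / Real.sin θ * (Real.sin (2 * θ - x) / Real.sin (2 * θ)) := by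
  have h1_lt := h1.lt
  have hpi := Real.pi_pos
  have hs : 0 < Real.sin θ := Real.sin_pos_of_pos_of_lt_pi h0 (by linarith)
  have hs2 : 0 < Real.sin (2 * θ) := Real.sin_pos_of_pos_of_lt_pi (by linarith) (by linarith)
  rw [div_mul_div_comm, trig_dp, le_div_iff₀ (by positivity), one_mul]
  have h2 : 0 ≤ Real.sin x := Real.sin_nonneg_of_nonneg_of_le_pi hx0 (by linarith)
  have h3 : 0 ≤ Real.sin (θ - x) := Real.sin_nonneg_of_nonneg_of_le_pi (by linarith) (by linarith)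
  have := mul_nonneg h2 h3
  linarith

open Classical in
/-- **The weights of a block with the mass `- x`, `0 ≤ x ≤ θ`: comparison.** -/
theorem blk_cmp (hq : IsPolygon q) (hD : Encloses q D) (h0 : 0 < θ) (h1 : Ang θ)
    (hl : l ≤ n) (h : Up q D ω l P) (h' : Up q D ω l P')
    (hk : ∀ A ∈ pcs ω D, P A → ¬ P' A → hi q A < k) {x M : ℝ} (hx0 : 0 ≤ x)
    (hx1 : x ≤ θ) (hM1 : 1 / Real.sin θ ≤ M) (hM2 : 1 / Real.sin (2 * θ) ≤ M)
    (hM3 : Real.sqrt (dpx θ x) ≤ M) :
    ∏ A ∈ (pcs ω D).filter (fun A => P A ∧ ¬ P' A), wB θ (gB θ) q D k A (-x) ≤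
      M * ∏ _A ∈ (pcs ω D).filter (fun A => P A ∧ ¬ P' A), Real.sqrt (dpx θ x) ∧
    ∏ _A ∈ (pcs ω D).filter (fun A => P A ∧ ¬ P' A), Real.sqrt (dpx θ x) ≤
      M * M * ∏ A ∈ (pcs ω D).filter (fun A => P A ∧ ¬ P' A), wB θ (gB θ) q D k A (-x) := by
  have h1_lt := h1.lt
  have hpi := Real.pi_pos
  have hs : 0 < Real.sin θ := Real.sin_pos_of_pos_of_lt_pi h0 (by linarith)
  have hs2 : 0 < Real.sin (2 * θ) := Real.sin_pos_of_pos_of_lt_pi (by linarith) (by linarith)
  have hc : 0 < Real.cos θ := h1.cos_pos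
  have e : ∏ A ∈ (pcs ω D).filter (fun A => P A ∧ ¬ P' A), wB θ (gB θ) q D k A (-x) =
      ∏ A ∈ (pcs ω D).filter (fun A => P A ∧ ¬ P' A), if QB.sg q A = 1 then
        Real.sin (θ + x) / Real.sin θ else Real.sin (2 * θ - x) / Real.sin (2 * θ) := by
    refine prod_congr rfl fun A hA => ?_
    rw [mem_filter] at hA
    have hl' : ¬ IsLp D A := fun h3 => ard_lp hq hD hA.1 h3 (h.ard A hA.1 hA.2.1)
    rw [wB_free hq hD hA.1 hl' (hk A hA.1 hA.2.1 hA.2.2), sub_neg_eq_add, ← sub_eq_add_neg]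
  rw [e]
  have h3 := trig_dp_ge h0 h1 hx0 hx1
  have h4 : 1 ≤ dpx θ x := h3
  have hd := trig_d h0 h1 hx0 hx1
  have hp := trig_p h0 h1 hx0 hx1
  have hM : 1 ≤ M * (2 * Real.cos θ) := by
    have h5 : 1 / Real.sin (2 * θ) * (2 * Real.cos θ) ≤ M * (2 * Real.cos θ) :=
      mul_le_mul_of_nonneg_right hM2 (by positivity)
    have h6 : 1 / Real.sin (2 * θ) * (2 * Real.cos θ) = 1 / Real.sin θ := by
      rw [Real.sin_two_mul]
      field_simp
    rw [h6] at h5
    refine le_trans ?_ h5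
    rw [le_div_iff₀ hs, one_mul]
    exact Real.sin_le_one _
  have hM1' : 1 ≤ M := (Real.one_le_sqrt.2 h4).trans hM3
  refine two_cmp _ _ (fun A _ => sg_cases A) (blk_sum hq hD hl h h') ?_ ?_ ?_ ?_
    (Real.one_le_sqrt.2 h4) (Real.sq_sqrt (by linarith)) ?_ ?_ hM3
  · exact hM.trans (mul_le_mul_of_nonneg_left hd (by linarith))
  · nlinarith
  · exact lt_of_lt_of_le (by positivity) hd
  · linarith
  · exact (div_le_div_of_nonneg_right (Real.sin_le_one _) hs.le).trans hM1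
  · exact (div_le_div_of_nonneg_right (Real.sin_le_one _) hs2.le).trans hM2

end Vale.Agent.P167.N.H208.ND
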