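import Vale.Agent.P167.N.Kit
import Vale.Agent.P167.N.H208.ND.Blk
import Vale.Agent.P167.H208.ND.Zon

/-!
# P167, `0 < q < 1`, block Q-ND: the pieces which avoid the zones
-/

set_option autoImplicit false

namespace Vale.Agent.P167.N.H208.ND

open Vale.Agent.P167.H208.ND Vale.Agent.P167.H208

open Finset Relation Vale.Agent.P167.BR

open Vale.Agent.P167.E6 (IsPolygon Encloses)

open Vale.Agent.P167.QX (lo hi exists_xy lo_xy hi_xy wB)

open Vale.Agent.P167.QB (gB Ard sgm ep sum_alt sg_cases sg_xy ard_lp non_cross vis_inner sep_ard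
  sgm_sub_bd wB_hx)

open Vale.Agent.P167.H436.ND (Wv)

variable {D : Finset (ℤ × ℤ)} {ω : Cfg} {n m : ℕ} {q : ZMod n → ℤ × ℤ} {A B : Finset Ed}
  {l k : ℕ} {θ : ℝ} {Z Z' : Fin m → Finset (ℤ × ℤ)} {s r : Fin m → ℕ}

section

variable (hq : IsPolygon q) (hD : Encloses q D) (hZ : Zn q D l k Z s r)

include hq hD hZ

end

section

variable (hq : IsPolygon q) (hD : Encloses q D) (hZ : Zn q D l k Z s r)

include hq hD hZ

open Classical in
/-- **The product over the pieces which avoid the zones and the product of the class weights.** -/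
theorem wv_cmp (h0 : 0 < θ) (h1 : Ang θ) {x v : ℕ → ℝ} (hx0 : ∀ j ≤ m, 0 ≤ x j)
    (hx1 : ∀ j ≤ m, x j ≤ θ) (hxm : x m = 0) (hv : ∀ j, v j = Real.sqrt (dpx θ (x j)))
    (hv0 : v 0 = 1) {M : ℝ} (hM1 : 1 / Real.sin θ ≤ M) (hM2 : 1 / Real.sin (2 * θ) ≤ M)
    (hM3 : ∀ j ≤ m, v j ≤ M) (ω : Cfg) {mF : Finset Ed → ℝ}
    (hmF : ∀ A ∈ pcs ω D, (∀ i, ¬ Vz (Z i) A) → mF A = if Ard q l A then -(x (cls q s A)) else 0) :
    ∏ A ∈ (pcs ω D).filter (fun A => ∀ i, ¬ Vz (Z i) A), wB θ (gB θ) q D k A (mF A) ≤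
      M ^ m * ∏ A ∈ (pcs ω D).filter (fun A => ∀ i, ¬ Vz (Z i) A), v (cls q s A) ∧
    ∏ A ∈ (pcs ω D).filter (fun A => ∀ i, ¬ Vz (Z i) A), v (cls q s A) ≤ (M * M) ^ m *
      ∏ A ∈ (pcs ω D).filter (fun A => ∀ i, ¬ Vz (Z i) A), wB θ (gB θ) q D k A (mF A) := by
  have h1_lt := h1.lt
  have hpi := Real.pi_pos
  have hs : 0 < Real.sin θ := Real.sin_pos_of_pos_of_lt_pi h0 (by linarith)
  have hc : 0 < Real.cos θ := Real.cos_pos_of_mem_Ioo ⟨by linarith, by linarith⟩
  have hM1' : 1 ≤ M := by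
    refine le_trans ?_ hM1
    rw [le_div_iff₀ hs, one_mul]
    exact Real.sin_le_one _
  have hM0 : 0 < M := by linarith
  set av := (pcs ω D).filter (fun A => ∀ i, ¬ Vz (Z i) A) with hav
  -- the strands around `q l`
  have red : ∀ g : Finset Ed → ℝ, (∀ A ∈ av, ¬ Ard q l A → g A = 1) →
      ∏ A ∈ av, g A = ∏ j ∈ range (m + 1), ∏ A ∈ (pcs ω D).filter (fun A => PU q l Z s j A ∧
        ¬ PV q l Z s j A), g A := by
    intro g hg
    rw [← prod_filter_mul_prod_filter_not av (fun A => Ard q l A)]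
    rw [prod_eq_one (s := av.filter fun A => ¬ Ard q l A) fun A hA => hg A (mem_filter.1 hA).1
      (mem_filter.1 hA).2, mul_one]
    rw [← prod_fiberwise_of_maps_to (t := range (m + 1)) (g := cls q s) (fun A _ => by
      rw [mem_range]; exact Nat.lt_succ_of_le (cls_le A))]
    refine prod_congr rfl fun j hj => prod_congr ?_ fun _ _ => rfl
    rw [mem_range] at hj
    ext A
    simp only [hav, mem_filter]
    rw [← cls_blk hZ j (by omega)]
    tauto
  have r1 := red (fun A => wB θ (gB θ) q D k A (mF A)) fun A hA hl => by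
    rw [hav, mem_filter] at hA
    rw [hmF A hA.1 hA.2, if_neg hl, wB_hx hs hc]
  have r2 := red (fun A => v (cls q s A)) fun A hA hl => by
    rw [hav, mem_filter] at hA
    have : cls q s A = 0 := by
      unfold cls
      rw [card_eq_zero, filter_eq_empty_iff]
      intro i _ h2
      exact hl (ard_l hq hD hZ i hA.1 (hA.2 i) h2)
    rw [this, hv0]
  -- the classes
  have cl : ∀ j ≤ m, ∀ A ∈ (pcs ω D).filter (fun A => PU q l Z s j A ∧ ¬ PV q l Z s j A),
      mF A = -(x j) ∧ v (cls q s A) = v j := by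
    intro j hj A hA
    rw [mem_filter] at hA
    obtain ⟨h2, h3, h4⟩ := (cls_blk hZ j hj).2 hA.2
    rw [hmF A hA.1 h2, if_pos h3, h4]
    exact ⟨rfl, rfl⟩
  have c1 : ∀ j ≤ m, ∏ A ∈ (pcs ω D).filter (fun A => PU q l Z s j A ∧ ¬ PV q l Z s j A),
      wB θ (gB θ) q D k A (mF A) = ∏ A ∈ (pcs ω D).filter (fun A => PU q l Z s j A ∧
        ¬ PV q l Z s j A), wB θ (gB θ) q D k A (-(x j)) := fun j hj =>
    prod_congr rfl fun A hA => by rw [(cl j hj A hA).1]
  have c2 : ∀ j ≤ m, ∏ A ∈ (pcs ω D).filter (fun A => PU q l Z s j A ∧ ¬ PV q l Z s j A),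
      v (cls q s A) = ∏ _A ∈ (pcs ω D).filter (fun A => PU q l Z s j A ∧
        ¬ PV q l Z s j A), Real.sqrt (dpx θ (x j)) := fun j hj =>
    prod_congr rfl fun A hA => by rw [(cl j hj A hA).2, hv]
  have lastw : ∏ A ∈ (pcs ω D).filter (fun A => PU q l Z s m A ∧ ¬ PV q l Z s m A),
      wB θ (gB θ) q D k A (mF A) = 1 := by
    rw [c1 m le_rfl, hxm, neg_zero]
    exact prod_eq_one fun A _ => wB_hx hs hc A
  have hd0 : dpx θ 0 = 1 := by
    unfold dpx
    have hs2 : 0 < Real.sin (2 * θ) := Real.sin_pos_of_pos_of_lt_pi (by linarith) (by linarith)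
    rw [add_zero, sub_zero, div_self hs.ne', div_self hs2.ne', one_mul]
  have lastv : ∏ A ∈ (pcs ω D).filter (fun A => PU q l Z s m A ∧ ¬ PV q l Z s m A),
      v (cls q s A) = 1 := by
    rw [c2 m le_rfl, hxm, hd0, Real.sqrt_one]
    exact prod_eq_one fun _ _ => rfl
  have b : ∀ j ∈ range m, _ := fun j hj => blk_cmp (k := k) (M := M) (x := x j) hq hD h0 h1 hZ.ln
    (up_PU hq hD hZ (ω := ω) j) (up_PV hq hD hZ (ω := ω) j)
    (fun A hA h2 h3 => cls_hi hq hD hZ (mem_range.1 hj) hA h2 h3) (hx0 j (mem_range.1 hj).le)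
    (hx1 j (mem_range.1 hj).le) hM1 hM2 (by rw [← hv]; exact hM3 j (mem_range.1 hj).le)
  have pos : ∀ j ∈ range m, 0 ≤ ∏ A ∈ (pcs ω D).filter (fun A => PU q l Z s j A ∧
      ¬ PV q l Z s j A), wB θ (gB θ) q D k A (-(x j)) := by
    intro j hj
    have h2 := (b j hj).2
    have h3 : 0 ≤ ∏ _A ∈ (pcs ω D).filter (fun A => PU q l Z s j A ∧ ¬ PV q l Z s j A),
      Real.sqrt (dpx θ (x j)) := prod_nonneg fun _ _ => Real.sqrt_nonneg _
    by_contra h4
    rw [not_le] at h4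
    have h5 := mul_neg_of_pos_of_neg (mul_pos hM0 hM0) h4
    linarith
  rw [r1, r2, prod_range_succ, prod_range_succ, lastw, lastv, mul_one, mul_one]
  rw [prod_congr rfl fun j hj => c1 j (mem_range.1 hj).le,
    prod_congr (s₁ := range m) rfl fun j hj => c2 j (mem_range.1 hj).le]
  constructor
  · have h2 : M ^ m * ∏ j ∈ range m, ∏ _A ∈ (pcs ω D).filter (fun A => PU q l Z s j A ∧
        ¬ PV q l Z s j A), Real.sqrt (dpx θ (x j)) = ∏ j ∈ range m, (M *
        ∏ _A ∈ (pcs ω D).filter (fun A => PU q l Z s j A ∧ ¬ PV q l Z s j A),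
          Real.sqrt (dpx θ (x j))) := by
      rw [prod_mul_distrib, prod_const, card_range]
    rw [h2]
    exact prod_le_prod pos fun j hj => (b j hj).1
  · have h2 : (M * M) ^ m * ∏ j ∈ range m, ∏ A ∈ (pcs ω D).filter (fun A => PU q l Z s j A ∧
        ¬ PV q l Z s j A), wB θ (gB θ) q D k A (-(x j)) = ∏ j ∈ range m, (M * M *
        ∏ A ∈ (pcs ω D).filter (fun A => PU q l Z s j A ∧ ¬ PV q l Z s j A),
          wB θ (gB θ) q D k A (-(x j))) := by
      rw [prod_mul_distrib, prod_const, card_range]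
    rw [h2]
    exact prod_le_prod (fun j _ => prod_nonneg fun _ _ => Real.sqrt_nonneg _) fun j hj => (b j hj).2

end

end Vale.Agent.P167.N.H208.ND
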