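import Vale.Agent.P167.N.Wd
import Vale.Agent.P167.N.H208.ND.Zon
import Vale.Agent.P167.N.H542.Q.Fam
import Vale.Agent.P167.N.H542.Q.PW
import Vale.Agent.P167.H208.ND.Fin

/-!
# P167, `0 < q < 1`, block Q-ND: the functional and the product of the class weights

`det_up`: `|X| ≤ M ^ m V ∏ Yp_i`. `det_lo`: if no open path crosses a gap between two rings, then
`V ≤ (M M) ^ m X ∏ Ym_i`. Single charges are at most `dw θ`.
-/

set_option autoImplicit false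

namespace Vale.Agent.P167.N.H208.ND

open Vale.Agent.P167.H208.ND Vale.Agent.P167.H208

open Finset Relation Vale.Agent.P167.BR Vale.Agent.P167
open Vale.Agent.P167.E6 (IsPolygon Encloses)
open Vale.Agent.P167.QX (lo hi exists_xy lo_xy hi_xy wB XB)
open Vale.Agent.P167.QB (gB gB_cos Ard sgm ep sum_alt sg_cases sg_xy ard_lp non_cross vis_inner sep_ard
  sgm_sub_bd wB_hx flat_side inn_xy dlt mass_dlt XG)
open Vale.Agent.P167.H436.ND
open Vale.Agent.P167.H192.TA (Xc)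
open Vale.Agent.P167.H542.Q (cB wR thB wR_thB)
open Vale.Agent.P167.N.H542.Q (cB_pos phs_thB)
open Vale.Agent.P167.H562.QM (MajA)
open Vale.Agent.P167.H562.MAJ (Sm)
open Vale.Agent.P167.H562.SML (smf)
open Vale.Agent.P167.H640.ND (mem_Zg mem_sites_Zg econ_Zg zone_sub sep_zn stay Zr_eq)

variable {D : Finset (ℤ × ℤ)} {ω : Cfg} {n m : ℕ} {q : ZMod n → ℤ × ℤ} {A B : Finset Ed}
  {l k : ℕ} {θ : ℝ} {R : ℤ} {a : Fin m → ℤ} {τ : Fin m → ℝ} {e M : ℝ} {f : Fin m → ℤ × ℤ → ℝ}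

/-! ### the constant -/

/-- The constant `M` for the angle `θ`. -/
structure Mc (θ M : ℝ) : Prop where
  h1 : 1 ≤ M
  cb : (cB θ)⁻¹ ≤ M
  s1 : 1 / Real.sin θ ≤ M
  s2 : 1 / Real.sin (2 * θ) ≤ M
  dp : ∀ x, 0 ≤ x → x ≤ θ → Real.sqrt (dpx θ x) ≤ M
  w1 : ∀ t, |t| ≤ dw θ → M⁻¹ ≤ Real.cos (θ + t) / Real.cos θ
  w2 : ∀ t, |t| ≤ dw θ → M⁻¹ ≤ Real.sin (θ + t) / Real.sin θ
  w3 : ∀ t, -θ ≤ t → t ≤ dw θ → M⁻¹ ≤ Real.sin (θ - t) / Real.sin θ
  w4 : ∀ t, -θ ≤ t → t ≤ dw θ → M⁻¹ ≤ Real.sin (2 * θ + t) / Real.sin (2 * θ)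

theorem exists_mc (h0 : 0 < θ) (h1 : Ang θ) : ∃ M, Mc θ M := by
  have hpi := Real.pi_gt_three
  have h1_lt := h1.lt
  have h1_gt := h1.gt
  have hd1 := dw_pos h1.lt
  have hd2 := dw_le θ
  have hd3 := dw_le' θ
  have hs : 0 < Real.sin θ := Real.sin_pos_of_pos_of_lt_pi h0 (by linarith)
  have hs2 : 0 < Real.sin (2 * θ) := Real.sin_pos_of_pos_of_lt_pi (by linarith) (by linarith)
  have hc : 0 < Real.cos θ := Real.cos_pos_of_mem_Ioo ⟨by linarith, by linarith⟩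
  obtain ⟨c1, hc1, k1⟩ := pos_bd (g := fun t => Real.cos (θ + t) / Real.cos θ) (by fun_prop)
    (a := -(dw θ)) (b := dw θ) fun t ht => div_pos (Real.cos_pos_of_mem_Ioo
      ⟨by linarith [ht.1], by linarith [ht.2]⟩) hc
  obtain ⟨c2, hc2, k2⟩ := pos_bd (g := fun t => Real.sin (θ + t) / Real.sin θ) (by fun_prop)
    (a := -(dw θ)) (b := dw θ) fun t ht => div_pos (Real.sin_pos_of_pos_of_lt_pi
      (by linarith [ht.1]) (by linarith [ht.2])) hs
  obtain ⟨c3, hc3, k3⟩ := pos_bd (g := fun t => Real.sin (θ - t) / Real.sin θ) (by fun_prop)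
    (a := -θ) (b := dw θ) fun t ht => div_pos (Real.sin_pos_of_pos_of_lt_pi
      (by linarith [ht.2]) (by linarith [ht.1])) hs
  obtain ⟨c4, hc4, k4⟩ := pos_bd (g := fun t => Real.sin (2 * θ + t) / Real.sin (2 * θ))
    (by fun_prop) (a := -θ) (b := dw θ) fun t ht => div_pos (Real.sin_pos_of_pos_of_lt_pi
      (by linarith [ht.1]) (by linarith [ht.2])) hs2
  have hcb := cB_pos h0 h1
  have hq := Real.sqrt_nonneg (1 / Real.sin θ * (1 / Real.sin (2 * θ)))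
  obtain ⟨M, hM⟩ : ∃ M, M = 1 + (cB θ)⁻¹ + 1 / Real.sin θ + 1 / Real.sin (2 * θ) +
    Real.sqrt (1 / Real.sin θ * (1 / Real.sin (2 * θ))) + c1⁻¹ + c2⁻¹ + c3⁻¹ + c4⁻¹ := ⟨_, rfl⟩
  have p1 : 0 < (cB θ)⁻¹ := inv_pos.2 hcb
  have p2 : 0 < 1 / Real.sin θ := by positivity
  have p3 : 0 < 1 / Real.sin (2 * θ) := by positivity
  have p4 := inv_pos.2 hc1
  have p5 := inv_pos.2 hc2
  have p6 := inv_pos.2 hc3
  have p7 := inv_pos.2 hc4
  refine ⟨M, by linarith, by linarith, by linarith, by linarith, fun x hx0 hx1 => ?_,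
    fun t ht => ?_, fun t ht => ?_, fun t ht ht' => ?_, fun t ht ht' => ?_⟩
  · have : Real.sqrt (dpx θ x) ≤ Real.sqrt (1 / Real.sin θ * (1 / Real.sin (2 * θ))) := by
      refine Real.sqrt_le_sqrt ?_
      unfold dpx
      refine mul_le_mul (div_le_div_of_nonneg_right (Real.sin_le_one _) hs.le)
        (div_le_div_of_nonneg_right (Real.sin_le_one _) hs2.le) ?_ p2.le
      exact div_nonneg (Real.sin_nonneg_of_nonneg_of_le_pi (by linarith) (by linarith)) hs2.le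
    linarith
  · rw [abs_le] at ht
    exact (inv_anti₀ (by positivity) (by linarith : c1⁻¹ ≤ M)).trans (by
      rw [inv_inv]; exact k1 t ⟨by linarith, by linarith⟩)
  · rw [abs_le] at ht
    exact (inv_anti₀ (by positivity) (by linarith : c2⁻¹ ≤ M)).trans (by
      rw [inv_inv]; exact k2 t ⟨by linarith, by linarith⟩)
  · exact (inv_anti₀ (by positivity) (by linarith : c3⁻¹ ≤ M)).trans (by
      rw [inv_inv]; exact k3 t ⟨by linarith, by linarith⟩)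
  · exact (inv_anti₀ (by positivity) (by linarith : c4⁻¹ ≤ M)).trans (by
      rw [inv_inv]; exact k4 t ⟨by linarith, by linarith⟩)

/-! ### the charges -/

/-- The charges: partial sums between `- θ` and `0`, total charge `0`, single charges at most
`dw θ`. -/
structure Chg (θ : ℝ) (τ : Fin m → ℝ) (e : ℝ) : Prop where
  lo : ∀ j ≤ m, -θ ≤ Sj τ e j
  up : ∀ j ≤ m, Sj τ e j ≤ 0
  fin : Sj τ e m = 0
  ini : Sj τ e 0 = 0 ∨ Sj τ e 0 = -θ
  small : ∀ i, |τ i| ≤ dw θ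

theorem dpx_zero (h0 : 0 < θ) (h1 : Ang θ) : dpx θ 0 = 1 ∧ dpx θ θ = 1 := by
  have hpi := Real.pi_gt_three
  have h1_lt := h1.lt
  have h1_gt := h1.gt
  have hd1 := dw_pos h1.lt
  have hd2 := dw_le θ
  have hd3 := dw_le' θ
  have hs : 0 < Real.sin θ := Real.sin_pos_of_pos_of_lt_pi h0 (by linarith)
  have hs2 : 0 < Real.sin (2 * θ) := Real.sin_pos_of_pos_of_lt_pi (by linarith) (by linarith)
  unfold dpx
  constructor
  · rw [add_zero, sub_zero, div_self hs.ne', div_self hs2.ne', one_mul]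
  · rw [← two_mul, show 2 * θ - θ = θ by ring]
    field_simp

theorem vj_zero (h0 : 0 < θ) (h1 : Ang θ) {j : ℕ}
    (h : Sj τ e j = 0 ∨ Sj τ e j = -θ) : vj θ τ e j = 1 := by
  unfold vj
  rcases h with h | h <;> rw [h]
  · rw [neg_zero, (dpx_zero h0 h1).1, Real.sqrt_one]
  · rw [neg_neg, (dpx_zero h0 h1).2, Real.sqrt_one]

theorem vj_ge (h0 : 0 < θ) (h1 : Ang θ) (hC : Chg θ τ e) {j : ℕ} (hj : j ≤ m) :
    1 ≤ vj θ τ e j :=
  Real.one_le_sqrt.2 (trig_dp_ge h0 h1 (by linarith [hC.up j hj]) (by linarith [hC.lo j hj]))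

/-! ### positivity of the weights of the visiting pieces -/

section

variable (hw : Win q D l R) (ha : Scl 4000 4 R a)
include hw ha

/-- **The weights of the visiting pieces are positive.** -/
theorem wpos (hM : Mc θ M) (hC : Chg θ τ e) (h0 : 0 < θ) (h1 : Ang θ)
    (hk : (l : ℤ) + R ≤ k) (hkn : k ≤ n) (hf0 : ∀ i z, 0 ≤ f i z)
    (hfs : ∀ i z, f i z ≠ 0 → z ∈ Kr (q l) (a i)) (hf1 : ∀ i, ∑ᶠ z, f i z = 1)
    (hgood : ∀ i j : Fin m, (i : ℕ) + 1 = j → ω ∉ Xc false (q l) (2 * a i) (a j))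
    (hA : A ∈ pcs ω D) (hV : ∃ i, Vz (Zr (q l) (a i)) A) :
    M⁻¹ ≤ wB θ (gB θ) q D k A (mass D (q 0) (Ft τ f (dlt (q l) e)) A) := by
  classical
  obtain ⟨i0, hV0⟩ := hV
  have hV' : ∀ i, i ≠ i0 → ¬ Vz (Zr (q l) (a i)) A := fun i hi h =>
    hi (one_ring hw ha hgood hA h hV0)
  rw [mass_vis hw ha hk hkn hfs hf1 hA i0 hV0 hV']
  obtain ⟨σ, hσ⟩ : ∃ σ, σ = mass D (q 0) (f i0) A := ⟨_, rfl⟩
  have h01 := mass_01 hw ha i0 (hf0 i0) (hfs i0) (hf1 i0) A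
  rw [← hσ] at h01 ⊢
  have hsm := hC.small i0
  have hts : |τ i0 * σ| ≤ dw θ := by
    rw [abs_mul, abs_of_nonneg h01.1]
    nlinarith [abs_nonneg (τ i0)]
  have hts' := abs_le.1 hts
  have hsm' := abs_le.1 hsm
  have hpi := Real.pi_gt_three
  have h1_gt := h1.gt
  have hd1 := dw_pos h1.lt
  have hd2 := dw_le θ
  have hS := Sj_succ (τ := τ) (e := e) i0
  have hS1 := hC.lo i0 i0.2.le
  have hS2 := hC.up i0 i0.2.le
  have hS3 := hC.lo (i0 + 1) i0.2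
  have hS4 := hC.up (i0 + 1) i0.2
  -- the range of the mass
  have hrange : -θ ≤ τ i0 * σ + (if Ard q l A then Sj τ e i0 else 0) ∧
      τ i0 * σ + (if Ard q l A then Sj τ e i0 else 0) ≤ dw θ := by
    by_cases hl : Ard q l A
    · rw [if_pos hl]
      have e1 : τ i0 * σ + Sj τ e i0 = σ * Sj τ e (i0 + 1) + (1 - σ) * Sj τ e i0 := by
        rw [hS]; ring
      rw [e1]
      constructor
      · nlinarith
      · nlinarith
    · rw [if_neg hl, add_zero]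
      constructor <;> linarith
  obtain ⟨t, ht⟩ : ∃ t, t = τ i0 * σ + (if Ard q l A then Sj τ e i0 else 0) := ⟨_, rfl⟩
  rw [← ht] at hrange ⊢
  unfold wB
  split_ifs with c1 c2 c3
  · refine hM.w1 t ?_
    rw [ht, if_neg (ard_lp hw.poly hw.enc hA c1), add_zero]
    exact hts
  · have e2 : Real.cos (θ / 2 + gB θ + t) = Real.sin (θ + t) := by
      unfold gB
      rw [show θ / 2 + (θ - Real.pi) / 2 + t = -(Real.pi / 2 - (θ + t)) by ring, Real.cos_neg,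
        Real.cos_pi_div_two_sub]
    rw [e2]
    refine hM.w2 t ?_
    by_cases hl : Ard q l A
    · have hlast : (i0 : ℕ) + 1 = m := by
        by_contra hne
        have h5 : (i0 : ℕ) + 1 < m := by have := i0.2; omega
        have h6 := ard_out hw ha (i := ⟨i0 + 1, h5⟩) (i0 := i0) (by
          rw [Fin.lt_def]; simp only; omega) hA (hV' _ (by
            intro h; have := congrArg Fin.val h; simp only at this; omega)) hV0
        have h7 := h6.2 c1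
        have h8 := range_i hw ha ⟨i0 + 1, h5⟩
        omega
      rw [hlast, hC.fin] at hS
      rw [ht, if_pos hl]
      have e3 : τ i0 * σ + Sj τ e i0 = -(τ i0) * (1 - σ) := by linarith
      rw [e3, abs_mul, abs_neg, abs_of_nonneg (by linarith : (0 : ℝ) ≤ 1 - σ)]
      nlinarith [abs_nonneg (τ i0)]
    · rw [ht, if_neg hl, add_zero]
      exact hts
  · exact hM.w4 t hrange.1 hrange.2
  · exact hM.w3 t hrange.1 hrange.2

/-- The lower majorant of a ring. -/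
noncomputable def Ym (θ M : ℝ) (c : ℝ) (f : ℤ × ℤ → ℝ) (Z : Finset (ℤ × ℤ)) (d : ℝ) (N : ℕ)
    (ω : Cfg) : ℝ :=
  M ^ N * Real.exp (Real.tan θ * Sm (fun z => c * f z) d ω +
    kw θ * ∑ ℓ ∈ smf Z d ω, (G (fun z => c * f z) ℓ) ^ 2)

section

variable (h0 : 0 < θ) (h1 : Ang θ) (hM : Mc θ M) (hC : Chg θ τ e)
  (hk : (l : ℤ) + R ≤ k) (hkn : k ≤ n) (hf0 : ∀ i z, 0 ≤ f i z)
  (hfs : ∀ i z, f i z ≠ 0 → z ∈ Kr (q l) (a i)) (hf1 : ∀ i, ∑ᶠ z, f i z = 1)
  (hsm : Sml q D l a ω)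
include h0 h1 hM hC hk hkn hf0 hfs hf1 hsm

open Classical in
omit hsm in
/-- The functional as a product over the avoiding and the visiting pieces. -/
theorem XG_split : XG θ q D k (Ft τ f (dlt (q l) e)) ω =
    (∏ A ∈ (pcs ω D).filter (fun A => ∀ i, ¬ Vz (Zr (q l) (a i)) A),
      wB θ (gB θ) q D k A (mass D (q 0) (Ft τ f (dlt (q l) e)) A)) *
    ∏ A ∈ (pcs ω D).filter (fun A => ∃ i, Vz (Zr (q l) (a i)) A),
      wB θ (gB θ) q D k A (mass D (q 0) (Ft τ f (dlt (q l) e)) A) := by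
  unfold XG QX.XB
  rw [← prod_filter_mul_prod_filter_not (pcs ω D) (fun A => ∀ i, ¬ Vz (Zr (q l) (a i)) A)]
  congr 1
  refine prod_congr ?_ fun _ _ => rfl
  refine filter_congr fun A _ => ?_
  push Not
  rfl

open Classical in
/-- The product over the avoiding pieces. -/
theorem av_cmp :
    ∏ A ∈ (pcs ω D).filter (fun A => ∀ i, ¬ Vz (Zr (q l) (a i)) A),
      wB θ (gB θ) q D k A (mass D (q 0) (Ft τ f (dlt (q l) e)) A) ≤
      M ^ m * H208.ND.Vc θ q D l a τ e ω ∧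
    H208.ND.Vc θ q D l a τ e ω ≤ (M * M) ^ m *
      ∏ A ∈ (pcs ω D).filter (fun A => ∀ i, ¬ Vz (Zr (q l) (a i)) A),
        wB θ (gB θ) q D k A (mass D (q 0) (Ft τ f (dlt (q l) e)) A) := by
  refine wv_cmp hw.poly hw.enc (zn_ring hw ha hk hkn) h0 h1 (x := fun j => -(Sj τ e j))
    (v := vj θ τ e) (fun j hj => by linarith [hC.up j hj]) (fun j hj => by linarith [hC.lo j hj])
    (by rw [hC.fin, neg_zero]) (fun j => rfl) (vj_zero h0 h1 hC.ini) hM.s1 hM.s2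
    (fun j hj => hM.dp _ (by linarith [hC.up j hj]) (by linarith [hC.lo j hj])) ω
    (mF := fun A => mass D (q 0) (Ft τ f (dlt (q l) e)) A) fun A hA hV => ?_
  rw [mass_av hw ha hk hkn hfs hf1 hA hV, neg_neg]

open Classical in
/-- The product over the visiting pieces. -/
theorem vis_bd {N : Fin m → ℕ} (hN : ∀ i, MajA (Zr (q l) (a i)) (kp * a i) ω (N i)) :
    |∏ A ∈ (pcs ω D).filter (fun A => ∃ i, Vz (Zr (q l) (a i)) A),
      wB θ (gB θ) q D k A (mass D (q 0) (Ft τ f (dlt (q l) e)) A)| ≤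
      ∏ i, Yp θ M (τ i) (f i) (kp * a i) (N i) ω ∧
    ((∀ i j : Fin m, (i : ℕ) + 1 = j → ω ∉ Xc false (q l) (2 * a i) (a j)) →
      ∏ i, (Ym θ M (τ i) (f i) (Zr (q l) (a i)) (kp * a i) (N i) ω)⁻¹ ≤
      ∏ A ∈ (pcs ω D).filter (fun A => ∃ i, Vz (Zr (q l) (a i)) A),
        wB θ (gB θ) q D k A (mass D (q 0) (Ft τ f (dlt (q l) e)) A)) := by
  have e1 : Ft (fun _ => 1) (fun i z => τ i * f i z) (dlt (q l) e) = Ft τ f (dlt (q l) e) := by
    funext z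
    simp [Ft]
  have key := Vale.Agent.P167.N.H542.Q.PW.s_PW θ (cB θ) D (thB θ (gB θ) q D k) (q 0) (phs_thB h0 h1 (gB_cos θ)) m
    (fun i => Zr (q l) (a i)) (fun i => Kr (q l) (a i)) (fun i => kp * a i) (rng_ring hw ha)
    (fun i z => τ i * f i z) (dlt (q l) e) (fun i z hz => hfs i z (right_ne_zero_of_mul hz)) ω
    (fun i ℓ _ _ => ?_) (fun A hA hv => ?_) N hN M hM.h1 hM.cb
  · rw [e1] at key
    simp only [wR_thB (gB_cos θ)] at key
    refine ⟨key.1, fun hgood => ?_⟩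
    refine le_trans (le_of_eq ?_) (key.2 fun A hA hv => ?_)
    · refine prod_congr rfl fun i _ => ?_
      unfold Ym
      rw [mul_inv, ← Real.exp_neg, inv_pow]
      congr 2
      ring
    · obtain ⟨i, hv, -⟩ := hv
      exact wpos hw ha hM hC h0 h1 hk hkn hf0 hfs hf1 hgood hA ⟨i, hv⟩
  · have h2 := hC.small i
    have h3 := range_i hw ha i
    have h4 : |G (fun z => τ i * f i z) ℓ| ≤ |τ i| :=
      abs_G_le (F := sites (Zr (q l) (a i))) (τ i) (hf0 i)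
        (fun z hz => kr_sites (by omega) (hfs i z hz)) (hf1 i) ℓ
    have := Real.pi_lt_d2
    linarith
  · obtain ⟨h2, h3⟩ := hsm A hA hv
    refine ⟨by rw [mass_dlt hw.poly hw.enc hw.l1.le hA (ql_mem hw ha), if_neg h2], fun hl => ?_⟩
    rw [e1, mass_lin, mass_dlt hw.poly hw.enc hw.l1.le hA (ql_mem hw ha), if_neg h2, add_zero]
    refine sum_eq_zero fun i _ => ?_
    have : mass D (q 0) (f i) A = 0 := by
      unfold mass
      refine sum_eq_zero fun z _ => ?_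
      by_cases hz : f i z = 0
      · rw [hz, ite_self]
      · rw [if_neg (h3 hl i z (hfs i z hz))]
    rw [this, mul_zero]

/-- **Upper bound.** -/
theorem det_up {N : Fin m → ℕ} (hN : ∀ i, MajA (Zr (q l) (a i)) (kp * a i) ω (N i)) :
    |XG θ q D k (Ft τ f (dlt (q l) e)) ω| ≤ M ^ m * H208.ND.Vc θ q D l a τ e ω *
      ∏ i, Yp θ M (τ i) (f i) (kp * a i) (N i) ω := by
  classical
  have hM0 : 0 < M := by linarith [hM.h1]
  have h2 := av_cmp hw ha h0 h1 hM hC hk hkn hf0 hfs hf1 hsm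
  have h3 := (vis_bd hw ha h0 h1 hM hC hk hkn hf0 hfs hf1 hsm hN).1
  rw [XG_split hw ha h0 h1 hM hC hk hkn hf0 hfs hf1, abs_mul]
  have hV : 0 ≤ H208.ND.Vc θ q D l a τ e ω := prod_nonneg fun _ _ => Real.sqrt_nonneg _
  have h4 : 0 ≤ ∏ A ∈ (pcs ω D).filter (fun A => ∀ i, ¬ Vz (Zr (q l) (a i)) A),
      wB θ (gB θ) q D k A (mass D (q 0) (Ft τ f (dlt (q l) e)) A) := by
    by_contra hcon
    have h5 : 0 < (M * M) ^ m := by positivity
    nlinarith [h2.2]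
  rw [abs_of_nonneg h4]
  exact mul_le_mul h2.1 h3 (abs_nonneg _) (by positivity)

/-- **Lower bound.** -/
theorem det_lo {N : Fin m → ℕ} (hN : ∀ i, MajA (Zr (q l) (a i)) (kp * a i) ω (N i))
    (hgood : ∀ i j : Fin m, (i : ℕ) + 1 = j → ω ∉ Xc false (q l) (2 * a i) (a j)) :
    H208.ND.Vc θ q D l a τ e ω ≤ (M * M) ^ m * XG θ q D k (Ft τ f (dlt (q l) e)) ω *
      ∏ i, Ym θ M (τ i) (f i) (Zr (q l) (a i)) (kp * a i) (N i) ω := by
  classical
  have hM0 : 0 < M := by linarith [hM.h1]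
  have h2 := av_cmp hw ha h0 h1 hM hC hk hkn hf0 hfs hf1 hsm
  have h3 := (vis_bd hw ha h0 h1 hM hC hk hkn hf0 hfs hf1 hsm hN).2 hgood
  rw [XG_split hw ha h0 h1 hM hC hk hkn hf0 hfs hf1]
  have hV : 0 ≤ H208.ND.Vc θ q D l a τ e ω := prod_nonneg fun _ _ => Real.sqrt_nonneg _
  obtain ⟨W, hW⟩ : ∃ W, W = ∏ A ∈ (pcs ω D).filter (fun A => ∀ i, ¬ Vz (Zr (q l) (a i)) A),
      wB θ (gB θ) q D k A (mass D (q 0) (Ft τ f (dlt (q l) e)) A) := ⟨_, rfl⟩
  obtain ⟨U, hU⟩ : ∃ U, U = ∏ A ∈ (pcs ω D).filter (fun A => ∃ i, Vz (Zr (q l) (a i)) A),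
      wB θ (gB θ) q D k A (mass D (q 0) (Ft τ f (dlt (q l) e)) A) := ⟨_, rfl⟩
  obtain ⟨Y, hY⟩ : ∃ Y, Y = ∏ i, Ym θ M (τ i) (f i) (Zr (q l) (a i)) (kp * a i) (N i) ω := ⟨_, rfl⟩
  rw [← hW] at h2 ⊢
  rw [← hU] at h3 ⊢
  rw [← hY]
  rw [prod_inv_distrib, ← hY] at h3
  have hY0 : 0 < Y := by
    rw [hY]
    refine prod_pos fun i _ => ?_
    unfold Ym
    positivity
  have h5 : 0 < (M * M) ^ m := by positivity
  have h4 : 0 ≤ W := by
    by_contra hcon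
    nlinarith [h2.2]
  have h6 : 1 ≤ U * Y := by
    have := mul_le_mul_of_nonneg_right h3 hY0.le
    rwa [inv_mul_cancel₀ hY0.ne'] at this
  calc H208.ND.Vc θ q D l a τ e ω ≤ (M * M) ^ m * W := h2.2
    _ ≤ (M * M) ^ m * W * (U * Y) := le_mul_of_one_le_right (by positivity) h6
    _ = _ := by ring

end

end

end Vale.Agent.P167.N.H208.ND
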